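import Mathlib

namespace Vale.Agent.Lib.P052

open Module

/-- A subspace of dimension at most `d` of a real inner product space embeds linearly and
isometrically into `ℝ^d`. -/
theorem exists_linearIsometry_of_finrank_le {E : Type*} [NormedAddCommGroup E]
    [InnerProductSpace ℝ E] (F : Submodule ℝ E) [FiniteDimensional ℝ F] {d : ℕ}
    (hF : finrank ℝ F ≤ d) : Nonempty (F →ₗᵢ[ℝ] EuclideanSpace ℝ (Fin d)) := by
  classical
  set c := stdOrthonormalBasis ℝ F with hc
  have hfin : finrank ℝ (EuclideanSpace ℝ (Fin d)) = d := by simp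
  set b : OrthonormalBasis (Fin d) ℝ (EuclideanSpace ℝ (Fin d)) := EuclideanSpace.basisFun (Fin d) ℝ
    with hb
  set v : Fin (finrank ℝ F) → EuclideanSpace ℝ (Fin d) := fun i => b (Fin.castLE hF i) with hv
  have hvo : Orthonormal ℝ v := b.orthonormal.comp _ (Fin.castLE_injective hF)
  set f : F →ₗ[ℝ] EuclideanSpace ℝ (Fin d) := c.toBasis.constr ℝ v with hf
  have hfo : Orthonormal ℝ (f ∘ c.toBasis) := by
    have : f ∘ c.toBasis = v := by
      funext i
      simp [hf]
    rw [this]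
    exact hvo
  exact ⟨f.isometryOfOrthonormal (by simp) hfo⟩

/-- Bridge: a finite configuration inside a subspace of dimension at most `d` of a real inner
product space, with diameter `D`, in which every subset of smaller diameter has at most `k`
points, and with more than `k * (d + 1)` points, gives a finite subset of `ℝ^d` that is not a
union of `d + 1` sets of smaller diameter. -/
theorem borsuk_of_finite_config {E : Type*} [NormedAddCommGroup E] [InnerProductSpace ℝ E]
    (F : Submodule ℝ E) [FiniteDimensional ℝ F] {d : ℕ} (hF : finrank ℝ F ≤ d)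
    (Y : Finset E) (hYF : ∀ y ∈ Y, y ∈ F) (D : ℝ) (hD : 0 < D)
    (hle : ∀ x ∈ Y, ∀ y ∈ Y, dist x y ≤ D)
    (hex : ∃ x ∈ Y, ∃ y ∈ Y, dist x y = D)
    (k : ℕ) (hclique : ∀ P : Finset E, P ⊆ Y → (∀ x ∈ P, ∀ y ∈ P, dist x y < D) → P.card ≤ k)
    (hcard : k * (d + 1) < Y.card) :
    ∃ Z : Set (EuclideanSpace ℝ (Fin d)), Z.Finite ∧ 0 < Metric.diam Z ∧
      ¬ ∃ P : Fin (d + 1) → Set (EuclideanSpace ℝ (Fin d)),
          (⋃ i, P i) = Z ∧ ∀ i, Metric.diam (P i) < Metric.diam Z := by
  classical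
  obtain ⟨φ⟩ := exists_linearIsometry_of_finrank_le F hF
  -- the transported configuration
  set g : E → EuclideanSpace ℝ (Fin d) := fun y => if hy : y ∈ F then φ ⟨y, hy⟩ else 0 with hg
  have hgdist : ∀ x ∈ Y, ∀ y ∈ Y, dist (g x) (g y) = dist x y := by
    intro x hx y hy
    have hxF := hYF x hx
    have hyF := hYF y hy
    simp only [hg, dif_pos hxF, dif_pos hyF]
    rw [φ.dist_map]
    rfl
  set Z : Set (EuclideanSpace ℝ (Fin d)) := g '' (Y : Set E) with hZ
  have hZfin : Z.Finite := (Y.finite_toSet).image g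
  have hZbdd : Bornology.IsBounded Z := hZfin.isBounded
  have hdiam_le : Metric.diam Z ≤ D := by
    apply Metric.diam_le_of_forall_dist_le hD.le
    rintro _ ⟨x, hx, rfl⟩ _ ⟨y, hy, rfl⟩
    rw [hgdist x hx y hy]
    exact hle x hx y hy
  have hdiam_ge : D ≤ Metric.diam Z := by
    obtain ⟨x, hx, y, hy, hxy⟩ := hex
    rw [← hxy, ← hgdist x hx y hy]
    exact Metric.dist_le_diam_of_mem hZbdd ⟨x, hx, rfl⟩ ⟨y, hy, rfl⟩
  have hdiam : Metric.diam Z = D := le_antisymm hdiam_le hdiam_ge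
  refine ⟨Z, hZfin, by rw [hdiam]; exact hD, ?_⟩
  rintro ⟨P, hPZ, hPd⟩
  rw [hdiam] at hPd
  -- pull the pieces back to `Y`
  have hPsub : ∀ i, P i ⊆ Z := fun i => by rw [← hPZ]; exact Set.subset_iUnion P i
  have hPbdd : ∀ i, Bornology.IsBounded (P i) := fun i => hZbdd.subset (hPsub i)
  set Q : Fin (d + 1) → Finset E := fun i => Y.filter (fun y => g y ∈ P i) with hQ
  have hQk : ∀ i, (Q i).card ≤ k := by
    intro i
    apply hclique (Q i) (Finset.filter_subset _ _)
    intro x hx y hy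
    rw [hQ, Finset.mem_filter] at hx hy
    rw [← hgdist x hx.1 y hy.1]
    exact lt_of_le_of_lt (Metric.dist_le_diam_of_mem (hPbdd i) hx.2 hy.2) (hPd i)
  have hcover : Y ⊆ Finset.univ.biUnion Q := by
    intro y hy
    have hgy : g y ∈ Z := ⟨y, hy, rfl⟩
    rw [← hPZ, Set.mem_iUnion] at hgy
    obtain ⟨i, hi⟩ := hgy
    rw [Finset.mem_biUnion]
    exact ⟨i, Finset.mem_univ i, by rw [hQ, Finset.mem_filter]; exact ⟨hy, hi⟩⟩
  have h1 : Y.card ≤ ∑ i : Fin (d + 1), (Q i).card :=
    (Finset.card_le_card hcover).trans Finset.card_biUnion_le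
  have h2 : ∑ i : Fin (d + 1), (Q i).card ≤ ∑ _i : Fin (d + 1), k :=
    Finset.sum_le_sum fun i _ => hQk i
  rw [Finset.sum_const, Finset.card_univ, Fintype.card_fin, smul_eq_mul] at h2
  have h3 : (d + 1) * k = k * (d + 1) := mul_comm _ _
  omega

end Vale.Agent.Lib.P052
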