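import Mathlib
import Vale.Agent.Lib.P052.lead.Bridge

/-!
# P052: from an integer Gram-type matrix to a counterexample to Borsuk's conjecture
-/

namespace Vale.Agent.Lib.P052

open Matrix

section rank

variable {n : ℕ}

/-- If `A * A = c • A` with `c ≠ 0` and `trace A = c * d`, the range of `A` has dimension `d`. -/
theorem finrank_range_toEuclideanLin_le (A : Matrix (Fin n) (Fin n) ℝ) (c : ℝ) (hc : c ≠ 0)
    (d : ℕ) (hsq : A * A = c • A) (htr : A.trace = c * d) :
    Module.finrank ℝ (LinearMap.range (Matrix.toEuclideanLin A)) ≤ d := by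
  set L := Matrix.toEuclideanLin A with hL
  set P : EuclideanSpace ℝ (Fin n) →ₗ[ℝ] EuclideanSpace ℝ (Fin n) := c⁻¹ • L with hP
  have hLL : L ∘ₗ L = c • L := by
    have h1 : L ∘ₗ L = Matrix.toEuclideanLin (A * A) := by
      rw [hL, Matrix.toEuclideanLin_eq_toLin_orthonormal, Matrix.toLin_mul _ (EuclideanSpace.basisFun (Fin n) ℝ).toBasis]
    rw [h1, hsq, map_smul]
  have hidem : IsIdempotentElem P := by
    change P * P = P
    rw [hP, Module.End.mul_eq_comp, LinearMap.smul_comp, LinearMap.comp_smul, hLL, smul_smul,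
      smul_smul]
    congr 1
    field_simp
  have hrange : LinearMap.range P = LinearMap.range L := by
    apply le_antisymm
    · rintro _ ⟨x, rfl⟩
      exact ⟨c⁻¹ • x, by simp [hP]⟩
    · rintro _ ⟨x, rfl⟩
      exact ⟨c • x, by simp [hP, smul_smul, mul_inv_cancel₀ hc]⟩
  have htrace := (LinearMap.IsIdempotentElem.isProj_range P hidem).trace
  have htrL : LinearMap.trace ℝ _ L = A.trace := by
    rw [LinearMap.trace_eq_matrix_trace ℝ (EuclideanSpace.basisFun (Fin n) ℝ).toBasis, hL,
      Matrix.toEuclideanLin_eq_toLin_orthonormal, LinearMap.toMatrix_toLin]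
  have htrP : LinearMap.trace ℝ _ P = d := by
    rw [hP, map_smul, htrL, htr, smul_eq_mul, ← mul_assoc, inv_mul_cancel₀ hc, one_mul]
  rw [htrP, hrange] at htrace
  have : (Module.finrank ℝ (LinearMap.range L) : ℝ) = d := htrace.symm
  exact_mod_cast this.le

end rank


section points

variable {n : ℕ}

/-- Column `u` of a real matrix as a point of Euclidean space. -/
noncomputable def colPt (A : Matrix (Fin n) (Fin n) ℝ) (u : Fin n) : EuclideanSpace ℝ (Fin n) :=
  Matrix.toEuclideanLin A (EuclideanSpace.single u 1)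

theorem colPt_apply (A : Matrix (Fin n) (Fin n) ℝ) (u i : Fin n) : colPt A u i = A i u := by
  simp [colPt]

theorem colPt_mem_range (A : Matrix (Fin n) (Fin n) ℝ) (u : Fin n) :
    colPt A u ∈ LinearMap.range (Matrix.toEuclideanLin A) :=
  ⟨_, rfl⟩

theorem inner_colPt (A : Matrix (Fin n) (Fin n) ℝ) (u v : Fin n) :
    inner ℝ (colPt A u) (colPt A v) = (A.transpose * A) u v := by
  simp [PiLp.inner_apply, colPt_apply, Matrix.mul_apply, mul_comm]

end points

section main

variable {n : ℕ}

/-- The scaling factor of the projected point: the positive root of `13 x^2 + 2 x = 17`. -/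
noncomputable def lam : ℝ := (Real.sqrt 222 - 1) / 13

theorem lam_eq : 13 * lam ^ 2 + 2 * lam = 17 := by
  have h : Real.sqrt 222 ^ 2 = 222 := Real.sq_sqrt (by norm_num)
  unfold lam
  field_simp
  nlinarith [h]

theorem one_lt_sqrt222 : (1 : ℝ) < Real.sqrt 222 := by
  rw [show (1 : ℝ) = Real.sqrt 1 by simp]
  exact Real.sqrt_lt_sqrt (by norm_num) (by norm_num)

theorem sqrt222_lt : Real.sqrt 222 < 53 := by
  rw [show (53 : ℝ) = Real.sqrt (53 ^ 2) by rw [Real.sqrt_sq (by norm_num)]]
  exact Real.sqrt_lt_sqrt (by norm_num) (by norm_num)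

theorem lam_pos : 0 < lam := by
  have := one_lt_sqrt222
  unfold lam
  linarith

theorem lam_lt_four : lam < 4 := by
  have := sqrt222_lt
  unfold lam
  linarith

theorem borsuk_of_matrix (N : Matrix (Fin n) (Fin n) ℤ) (c d k : ℕ) (hc : 0 < c)
    (hsq : N.transpose * N = (c : ℤ) • N) (htr : N.trace = (c : ℤ) * (d : ℤ))
    (T : Finset (Fin n)) (v0 : Fin n) (_hv0 : v0 ∈ T)
    (hdiag : ∀ u ∈ T, u ≠ v0 → N u u = 15) (hv0d : N v0 v0 = 13)
    (hoff : ∀ u ∈ T, ∀ v ∈ T, u ≠ v → N u v = 3 ∨ N u v = -1)
    (hfar : ∃ u ∈ T, ∃ v ∈ T, u ≠ v ∧ N u v = -1)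
    (hclique : ∀ P : Finset (Fin n), P ⊆ T →
      (∀ u ∈ P, ∀ v ∈ P, u ≠ v → N u v = 3) → P.card ≤ k)
    (hcard : k * (d + 1) < T.card) :
    ∃ Z : Set (EuclideanSpace ℝ (Fin d)), Z.Finite ∧ 0 < Metric.diam Z ∧
      ¬ ∃ P : Fin (d + 1) → Set (EuclideanSpace ℝ (Fin d)),
          (⋃ i, P i) = Z ∧ ∀ i, Metric.diam (P i) < Metric.diam Z := by
  classical
  set A : Matrix (Fin n) (Fin n) ℝ := N.map (Int.cast : ℤ → ℝ) with hA
  have hcR : (0 : ℝ) < c := by exact_mod_cast hc
  have hcZ : (c : ℤ) ≠ 0 := by exact_mod_cast hc.ne'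
  have hAsq : A.transpose * A = (c : ℝ) • A := by
    ext i j
    have h := congrFun (congrFun hsq i) j
    simp only [Matrix.mul_apply, Matrix.transpose_apply, Matrix.smul_apply, smul_eq_mul] at h
    simp only [hA, Matrix.mul_apply, Matrix.transpose_apply, Matrix.smul_apply, smul_eq_mul,
      Matrix.map_apply]
    exact_mod_cast h
  have hNsymm : N.transpose = N := by
    have h1 : (N.transpose * N).transpose = N.transpose * N := by
      rw [Matrix.transpose_mul, Matrix.transpose_transpose]
    rw [hsq, Matrix.transpose_smul] at h1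
    ext i j
    have h := congrFun (congrFun h1 i) j
    simp only [Matrix.smul_apply, smul_eq_mul] at h
    exact mul_left_cancel₀ hcZ h
  have hAsymm : A.transpose = A := by
    ext i j
    have h := congrFun (congrFun hNsymm i) j
    simp only [Matrix.transpose_apply] at h
    simp only [hA, Matrix.transpose_apply, Matrix.map_apply]
    rw [h]
  have hAA : A * A = (c : ℝ) • A := by
    have h := hAsq
    rw [hAsymm] at h
    exact h
  have hAtr : A.trace = (c : ℝ) * d := by
    have h : (N.trace : ℝ) = A.trace := by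
      simp [hA, Matrix.trace]
    rw [← h, htr]
    push_cast
    ring
  have hrank := finrank_range_toEuclideanLin_le A c hcR.ne' d hAA hAtr
  have hinner : ∀ u v, inner ℝ (colPt A u) (colPt A v) = (c : ℝ) * (N u v : ℝ) := by
    intro u v
    rw [inner_colPt, hAsq]
    simp [hA]
  have hsqd : ∀ (a b : ℝ) (u v : Fin n), dist (a • colPt A u) (b • colPt A v) ^ 2 =
      c * (a ^ 2 * N u u + b ^ 2 * N v v - 2 * a * b * N u v) := by
    intro a b u v
    have hn : ∀ w, ‖colPt A w‖ ^ 2 = c * (N w w : ℝ) := fun w => by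
      rw [← real_inner_self_eq_norm_sq, hinner]
    rw [dist_eq_norm, norm_sub_sq_real, norm_smul, norm_smul, inner_smul_left, inner_smul_right,
      mul_pow, mul_pow, hn, hn, hinner]
    simp only [Real.norm_eq_abs, sq_abs, conj_trivial]
    ring
  set a : Fin n → ℝ := fun u => if u = v0 then lam else 1 with ha
  set p : Fin n → EuclideanSpace ℝ (Fin n) := fun u => a u • colPt A u with hp
  set D : ℝ := Real.sqrt (32 * c) with hD
  have hDpos : 0 < D := Real.sqrt_pos.2 (by positivity)
  have hD2 : D ^ 2 = 32 * c := Real.sq_sqrt (by positivity)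
  have key : ∀ u ∈ T, ∀ v ∈ T, u ≠ v →
      (N u v = -1 → dist (p u) (p v) ^ 2 = 32 * c) ∧
      (N u v = 3 → dist (p u) (p v) ^ 2 < 32 * c ∧ 0 < dist (p u) (p v) ^ 2) := by
    intro u hu v hv huv
    have hl := lam_eq
    have hl0 := lam_pos
    have hl4 := lam_lt_four
    simp only [hp]
    rw [hsqd]
    by_cases h1 : u = v0
    · have h2 : v ≠ v0 := fun h => huv (h1.trans h.symm)
      have e1 : a u = lam := by simp [ha, h1]
      have e2 : a v = 1 := by simp [ha, h2]
      have e3 : (N u u : ℝ) = 13 := by rw [h1, hv0d]; norm_num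
      have e4 : (N v v : ℝ) = 15 := by rw [hdiag v hv h2]; norm_num
      rw [e1, e2, e3, e4]
      constructor
      · intro h
        rw [h]
        push_cast
        nlinarith
      · intro h
        rw [h]
        push_cast
        constructor <;> nlinarith
    · by_cases h2 : v = v0
      · have e1 : a u = 1 := by simp [ha, h1]
        have e2 : a v = lam := by simp [ha, h2]
        have e3 : (N u u : ℝ) = 15 := by rw [hdiag u hu h1]; norm_num
        have e4 : (N v v : ℝ) = 13 := by rw [h2, hv0d]; norm_num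
        rw [e1, e2, e3, e4]
        constructor
        · intro h
          rw [h]
          push_cast
          nlinarith
        · intro h
          rw [h]
          push_cast
          constructor <;> nlinarith
      · have e1 : a u = 1 := by simp [ha, h1]
        have e2 : a v = 1 := by simp [ha, h2]
        have e3 : (N u u : ℝ) = 15 := by rw [hdiag u hu h1]; norm_num
        have e4 : (N v v : ℝ) = 15 := by rw [hdiag v hv h2]; norm_num
        rw [e1, e2, e3, e4]
        constructor
        · intro h
          rw [h]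
          push_cast
          nlinarith
        · intro h
          rw [h]
          push_cast
          constructor <;> nlinarith
  -- distances
  have hfarD : ∀ u ∈ T, ∀ v ∈ T, u ≠ v → N u v = -1 → dist (p u) (p v) = D := by
    intro u hu v hv huv h
    have h1 := (key u hu v hv huv).1 h
    rw [← hD2] at h1
    exact (sq_eq_sq₀ dist_nonneg hDpos.le).1 h1
  have hcloseD : ∀ u ∈ T, ∀ v ∈ T, u ≠ v → N u v = 3 →
      dist (p u) (p v) < D ∧ 0 < dist (p u) (p v) := by
    intro u hu v hv huv h
    have h1 := (key u hu v hv huv).2 h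
    rw [← hD2] at h1
    refine ⟨lt_of_pow_lt_pow_left₀ 2 hDpos.le h1.1, ?_⟩
    rcases (dist_nonneg (x := p u) (y := p v)).eq_or_lt with h0 | h0
    · rw [← h0] at h1
      simp at h1
    · exact h0
  have hposdist : ∀ u ∈ T, ∀ v ∈ T, u ≠ v → 0 < dist (p u) (p v) := by
    intro u hu v hv huv
    rcases hoff u hu v hv huv with h | h
    · exact (hcloseD u hu v hv huv h).2
    · rw [hfarD u hu v hv huv h]; exact hDpos
  have hinj : Set.InjOn p (T : Set (Fin n)) := by
    intro u hu v hv huv
    by_contra hne
    have := hposdist u hu v hv hne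
    rw [huv, dist_self] at this
    exact lt_irrefl _ this
  refine borsuk_of_finite_config (LinearMap.range (Matrix.toEuclideanLin A)) hrank (T.image p)
    ?_ D hDpos ?_ ?_ k ?_ ?_
  · intro y hy
    obtain ⟨u, -, rfl⟩ := Finset.mem_image.1 hy
    exact Submodule.smul_mem _ _ (colPt_mem_range A u)
  · intro x hx y hy
    obtain ⟨u, hu, rfl⟩ := Finset.mem_image.1 hx
    obtain ⟨v, hv, rfl⟩ := Finset.mem_image.1 hy
    by_cases huv : u = v
    · rw [huv, dist_self]; exact hDpos.le
    · rcases hoff u hu v hv huv with h | h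
      · exact (hcloseD u hu v hv huv h).1.le
      · exact (hfarD u hu v hv huv h).le
  · obtain ⟨u, hu, v, hv, huv, h⟩ := hfar
    exact ⟨p u, Finset.mem_image_of_mem p hu, p v, Finset.mem_image_of_mem p hv,
      hfarD u hu v hv huv h⟩
  · intro P hP hPclose
    set P' : Finset (Fin n) := T.filter (fun u => p u ∈ P) with hP'
    have hPeq : P = P'.image p := by
      ext y
      constructor
      · intro hy
        obtain ⟨u, hu, rfl⟩ := Finset.mem_image.1 (hP hy)
        exact Finset.mem_image.2 ⟨u, Finset.mem_filter.2 ⟨hu, hy⟩, rfl⟩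
      · intro hy
        obtain ⟨u, hu, rfl⟩ := Finset.mem_image.1 hy
        exact (Finset.mem_filter.1 hu).2
    have hcardP : P.card = P'.card := by
      rw [hPeq]
      apply Finset.card_image_of_injOn
      intro u hu v hv huv
      exact hinj (Finset.mem_filter.1 (Finset.mem_coe.1 hu)).1
        (Finset.mem_filter.1 (Finset.mem_coe.1 hv)).1 huv
    rw [hcardP]
    apply hclique P' (Finset.filter_subset _ _)
    intro u hu v hv huv
    have huT := (Finset.mem_filter.1 hu).1
    have hvT := (Finset.mem_filter.1 hv).1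
    rcases hoff u huT v hvT huv with h | h
    · exact h
    · exfalso
      have h1 := hPclose (p u) (Finset.mem_filter.1 hu).2 (p v) (Finset.mem_filter.1 hv).2
      rw [hfarD u huT v hvT huv h] at h1
      exact lt_irrefl _ h1
  · rw [Finset.card_image_of_injOn hinj]
    exact hcard

end main

end Vale.Agent.Lib.P052

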