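import Vale.Agent.Lib.P052.helper29.CliqueCheck
import Vale.Agent.Lib.P052.lead.Data

/-! Kernel-checked local clique tests for the 321 vertices used (a short block of start
vertices per statement, so that each statement is a small computation). -/

namespace Vale.Agent.Lib.P052.Fine

open Vale.Agent.Lib.P052 Vale.Agent.Lib.P052.H29

theorem cf_17 : freeRange 5 (pairsFrom 0 (adjRows.take 321)) 17 1 = true := by
  decide +kernel

theorem cf_25 : freeRange 5 (pairsFrom 0 (adjRows.take 321)) 25 1 = true := by
  decide +kernel

theorem cf_28 : freeRange 5 (pairsFrom 0 (adjRows.take 321)) 28 1 = true := by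
  decide +kernel

theorem cf_35 : freeRange 5 (pairsFrom 0 (adjRows.take 321)) 35 1 = true := by
  decide +kernel

theorem cf_48 : freeRange 5 (pairsFrom 0 (adjRows.take 321)) 48 2 = true := by
  decide +kernel

theorem cf_56 : freeRange 5 (pairsFrom 0 (adjRows.take 321)) 56 2 = true := by
  decide +kernel

theorem cf_64 : freeRange 5 (pairsFrom 0 (adjRows.take 321)) 64 1 = true := by
  decide +kernel

theorem cf_68 : freeRange 5 (pairsFrom 0 (adjRows.take 321)) 68 1 = true := by
  decide +kernel

theorem cf_69 : freeRange 5 (pairsFrom 0 (adjRows.take 321)) 69 2 = true := by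
  decide +kernel

theorem cf_100 : freeRange 5 (pairsFrom 0 (adjRows.take 321)) 100 2 = true := by
  decide +kernel

theorem cf_141 : freeRange 5 (pairsFrom 0 (adjRows.take 321)) 141 4 = true := by
  decide +kernel

theorem cf_163 : freeRange 5 (pairsFrom 0 (adjRows.take 321)) 163 8 = true := by
  decide +kernel

theorem cf_194 : freeRange 5 (pairsFrom 0 (adjRows.take 321)) 194 18 = true := by
  decide +kernel

end Vale.Agent.Lib.P052.Fine
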