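import Vale.Agent.Lib.P052.helper29.CliqueCheck
import Vale.Agent.Lib.P052.lead.Data
import Vale.Agent.Lib.P052.lead.CliqueFineA

/-! Kernel-checked local clique tests for the 321 vertices used (a short block of start
vertices per statement, so that each statement is a small computation). -/

namespace Vale.Agent.Lib.P052.Fine

open Vale.Agent.Lib.P052 Vale.Agent.Lib.P052.H29

theorem cf_4 : freeRange 5 (pairsFrom 0 (adjRows.take 321)) 4 1 = true := by
  decide +kernel

theorem cf_10 : freeRange 5 (pairsFrom 0 (adjRows.take 321)) 10 1 = true := by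
  decide +kernel

theorem cf_16 : freeRange 5 (pairsFrom 0 (adjRows.take 321)) 16 1 = true := by
  decide +kernel

theorem cf_23 : freeRange 5 (pairsFrom 0 (adjRows.take 321)) 23 1 = true := by
  decide +kernel

theorem cf_39 : freeRange 5 (pairsFrom 0 (adjRows.take 321)) 39 1 = true := by
  decide +kernel

theorem cf_40 : freeRange 5 (pairsFrom 0 (adjRows.take 321)) 40 1 = true := by
  decide +kernel

theorem cf_63 : freeRange 5 (pairsFrom 0 (adjRows.take 321)) 63 1 = true := by
  decide +kernel

theorem cf_75 : freeRange 5 (pairsFrom 0 (adjRows.take 321)) 75 2 = true := by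
  decide +kernel

theorem cf_102 : freeRange 5 (pairsFrom 0 (adjRows.take 321)) 102 2 = true := by
  decide +kernel

theorem cf_104 : freeRange 5 (pairsFrom 0 (adjRows.take 321)) 104 3 = true := by
  decide +kernel

theorem cf_109 : freeRange 5 (pairsFrom 0 (adjRows.take 321)) 109 3 = true := by
  decide +kernel

theorem cf_150 : freeRange 5 (pairsFrom 0 (adjRows.take 321)) 150 6 = true := by
  decide +kernel

end Vale.Agent.Lib.P052.Fine
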