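import Vale.Agent.Lib.P052.helper29.CliqueCheck
import Vale.Agent.Lib.P052.lead.Data
import Vale.Agent.Lib.P052.lead.CliqueFineB

/-! Kernel-checked local clique tests for the 321 vertices used (a short block of start
vertices per statement, so that each statement is a small computation). -/

namespace Vale.Agent.Lib.P052.Fine

open Vale.Agent.Lib.P052 Vale.Agent.Lib.P052.H29

theorem cf_2 : freeRange 5 (pairsFrom 0 (adjRows.take 321)) 2 1 = true := by
  decide +kernel

theorem cf_22 : freeRange 5 (pairsFrom 0 (adjRows.take 321)) 22 1 = true := by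
  decide +kernel

theorem cf_26 : freeRange 5 (pairsFrom 0 (adjRows.take 321)) 26 1 = true := by
  decide +kernel

theorem cf_37 : freeRange 5 (pairsFrom 0 (adjRows.take 321)) 37 1 = true := by
  decide +kernel

theorem cf_41 : freeRange 5 (pairsFrom 0 (adjRows.take 321)) 41 1 = true := by
  decide +kernel

theorem cf_52 : freeRange 5 (pairsFrom 0 (adjRows.take 321)) 52 2 = true := by
  decide +kernel

theorem cf_60 : freeRange 5 (pairsFrom 0 (adjRows.take 321)) 60 1 = true := by
  decide +kernel

theorem cf_77 : freeRange 5 (pairsFrom 0 (adjRows.take 321)) 77 2 = true := by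
  decide +kernel

theorem cf_128 : freeRange 5 (pairsFrom 0 (adjRows.take 321)) 128 5 = true := by
  decide +kernel

theorem cf_133 : freeRange 5 (pairsFrom 0 (adjRows.take 321)) 133 4 = true := by
  decide +kernel

theorem cf_137 : freeRange 5 (pairsFrom 0 (adjRows.take 321)) 137 4 = true := by
  decide +kernel

theorem cf_171 : freeRange 5 (pairsFrom 0 (adjRows.take 321)) 171 10 = true := by
  decide +kernel

end Vale.Agent.Lib.P052.Fine
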