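import Vale.Agent.Lib.P052.helper29.CliqueCheck
import Vale.Agent.Lib.P052.lead.Data
import Vale.Agent.Lib.P052.lead.CliqueFineC

/-! Kernel-checked local clique tests for the 321 vertices used (a short block of start
vertices per statement, so that each statement is a small computation). -/

namespace Vale.Agent.Lib.P052.Fine

open Vale.Agent.Lib.P052 Vale.Agent.Lib.P052.H29

theorem cf_1 : freeRange 5 (pairsFrom 0 (adjRows.take 321)) 1 1 = true := by
  decide +kernel

theorem cf_3 : freeRange 5 (pairsFrom 0 (adjRows.take 321)) 3 1 = true := by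
  decide +kernel

theorem cf_9 : freeRange 5 (pairsFrom 0 (adjRows.take 321)) 9 1 = true := by
  decide +kernel

theorem cf_18 : freeRange 5 (pairsFrom 0 (adjRows.take 321)) 18 1 = true := by
  decide +kernel

theorem cf_31 : freeRange 5 (pairsFrom 0 (adjRows.take 321)) 31 1 = true := by
  decide +kernel

theorem cf_33 : freeRange 5 (pairsFrom 0 (adjRows.take 321)) 33 1 = true := by
  decide +kernel

theorem cf_50 : freeRange 5 (pairsFrom 0 (adjRows.take 321)) 50 2 = true := by
  decide +kernel

theorem cf_58 : freeRange 5 (pairsFrom 0 (adjRows.take 321)) 58 2 = true := by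
  decide +kernel

theorem cf_65 : freeRange 5 (pairsFrom 0 (adjRows.take 321)) 65 1 = true := by
  decide +kernel

theorem cf_73 : freeRange 5 (pairsFrom 0 (adjRows.take 321)) 73 2 = true := by
  decide +kernel

theorem cf_89 : freeRange 5 (pairsFrom 0 (adjRows.take 321)) 89 2 = true := by
  decide +kernel

theorem cf_112 : freeRange 5 (pairsFrom 0 (adjRows.take 321)) 112 2 = true := by
  decide +kernel

theorem cf_244 : freeRange 5 (pairsFrom 0 (adjRows.take 321)) 244 77 = true := by
  decide +kernel

end Vale.Agent.Lib.P052.Fine
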