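import Vale.Agent.Lib.P052.helper29.CliqueCheck
import Vale.Agent.Lib.P052.lead.Data

/-! Kernel-checked local clique tests for the 321 vertices used (a short block of start
vertices per statement, so that each statement is a small computation). -/

namespace Vale.Agent.Lib.P052.Fine

open Vale.Agent.Lib.P052 Vale.Agent.Lib.P052.H29

theorem cf_0 : freeRange 5 (pairsFrom 0 (adjRows.take 321)) 0 1 = true := by
  decide +kernel

theorem cf_6 : freeRange 5 (pairsFrom 0 (adjRows.take 321)) 6 1 = true := by
  decide +kernel

theorem cf_11 : freeRange 5 (pairsFrom 0 (adjRows.take 321)) 11 1 = true := by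
  decide +kernel

theorem cf_20 : freeRange 5 (pairsFrom 0 (adjRows.take 321)) 20 1 = true := by
  decide +kernel

theorem cf_30 : freeRange 5 (pairsFrom 0 (adjRows.take 321)) 30 1 = true := by
  decide +kernel

theorem cf_32 : freeRange 5 (pairsFrom 0 (adjRows.take 321)) 32 1 = true := by
  decide +kernel

theorem cf_43 : freeRange 5 (pairsFrom 0 (adjRows.take 321)) 43 1 = true := by
  decide +kernel

theorem cf_85 : freeRange 5 (pairsFrom 0 (adjRows.take 321)) 85 2 = true := by
  decide +kernel

theorem cf_91 : freeRange 5 (pairsFrom 0 (adjRows.take 321)) 91 3 = true := by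
  decide +kernel

theorem cf_94 : freeRange 5 (pairsFrom 0 (adjRows.take 321)) 94 3 = true := by
  decide +kernel

theorem cf_107 : freeRange 5 (pairsFrom 0 (adjRows.take 321)) 107 2 = true := by
  decide +kernel

theorem cf_145 : freeRange 5 (pairsFrom 0 (adjRows.take 321)) 145 5 = true := by
  decide +kernel

end Vale.Agent.Lib.P052.Fine
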