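import Vale.Agent.Lib.P052.helper29.CliqueCheck
import Vale.Agent.Lib.P052.lead.Data
import Vale.Agent.Lib.P052.lead.CliqueFineE

/-! Kernel-checked local clique tests for the 321 vertices used (a short block of start
vertices per statement, so that each statement is a small computation). -/

namespace Vale.Agent.Lib.P052.Fine

open Vale.Agent.Lib.P052 Vale.Agent.Lib.P052.H29

theorem cf_5 : freeRange 5 (pairsFrom 0 (adjRows.take 321)) 5 1 = true := by
  decide +kernel

theorem cf_8 : freeRange 5 (pairsFrom 0 (adjRows.take 321)) 8 1 = true := by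
  decide +kernel

theorem cf_14 : freeRange 5 (pairsFrom 0 (adjRows.take 321)) 14 1 = true := by
  decide +kernel

theorem cf_15 : freeRange 5 (pairsFrom 0 (adjRows.take 321)) 15 1 = true := by
  decide +kernel

theorem cf_19 : freeRange 5 (pairsFrom 0 (adjRows.take 321)) 19 1 = true := by
  decide +kernel

theorem cf_21 : freeRange 5 (pairsFrom 0 (adjRows.take 321)) 21 1 = true := by
  decide +kernel

theorem cf_42 : freeRange 5 (pairsFrom 0 (adjRows.take 321)) 42 1 = true := by
  decide +kernel

theorem cf_47 : freeRange 5 (pairsFrom 0 (adjRows.take 321)) 47 1 = true := by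
  decide +kernel

theorem cf_54 : freeRange 5 (pairsFrom 0 (adjRows.take 321)) 54 2 = true := by
  decide +kernel

theorem cf_62 : freeRange 5 (pairsFrom 0 (adjRows.take 321)) 62 1 = true := by
  decide +kernel

theorem cf_67 : freeRange 5 (pairsFrom 0 (adjRows.take 321)) 67 1 = true := by
  decide +kernel

theorem cf_114 : freeRange 5 (pairsFrom 0 (adjRows.take 321)) 114 3 = true := by
  decide +kernel

theorem cf_181 : freeRange 5 (pairsFrom 0 (adjRows.take 321)) 181 13 = true := by
  decide +kernel

end Vale.Agent.Lib.P052.Fine
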