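import Vale.Agent.Lib.P052.helper29.CliqueCheck
import Vale.Agent.Lib.P052.lead.Data
import Vale.Agent.Lib.P052.lead.CliqueFineF

/-! Kernel-checked local clique tests for the 321 vertices used (a short block of start
vertices per statement, so that each statement is a small computation). -/

namespace Vale.Agent.Lib.P052.Fine

open Vale.Agent.Lib.P052 Vale.Agent.Lib.P052.H29

theorem cf_7 : freeRange 5 (pairsFrom 0 (adjRows.take 321)) 7 1 = true := by
  decide +kernel

theorem cf_12 : freeRange 5 (pairsFrom 0 (adjRows.take 321)) 12 1 = true := by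
  decide +kernel

theorem cf_13 : freeRange 5 (pairsFrom 0 (adjRows.take 321)) 13 1 = true := by
  decide +kernel

theorem cf_24 : freeRange 5 (pairsFrom 0 (adjRows.take 321)) 24 1 = true := by
  decide +kernel

theorem cf_27 : freeRange 5 (pairsFrom 0 (adjRows.take 321)) 27 1 = true := by
  decide +kernel

theorem cf_34 : freeRange 5 (pairsFrom 0 (adjRows.take 321)) 34 1 = true := by
  decide +kernel

theorem cf_36 : freeRange 5 (pairsFrom 0 (adjRows.take 321)) 36 1 = true := by
  decide +kernel

theorem cf_66 : freeRange 5 (pairsFrom 0 (adjRows.take 321)) 66 1 = true := by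
  decide +kernel

theorem cf_71 : freeRange 5 (pairsFrom 0 (adjRows.take 321)) 71 2 = true := by
  decide +kernel

theorem cf_81 : freeRange 5 (pairsFrom 0 (adjRows.take 321)) 81 2 = true := by
  decide +kernel

theorem cf_117 : freeRange 5 (pairsFrom 0 (adjRows.take 321)) 117 3 = true := by
  decide +kernel

theorem cf_156 : freeRange 5 (pairsFrom 0 (adjRows.take 321)) 156 7 = true := by
  decide +kernel

end Vale.Agent.Lib.P052.Fine
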