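import Vale.Agent.Lib.P052.helper29.CliqueCheck
import Vale.Agent.Lib.P052.lead.Data
import Vale.Agent.Lib.P052.lead.CliqueFineG

/-! Kernel-checked local clique tests for the 321 vertices used (a short block of start
vertices per statement, so that each statement is a small computation). -/

namespace Vale.Agent.Lib.P052.Fine

open Vale.Agent.Lib.P052 Vale.Agent.Lib.P052.H29

theorem cf_29 : freeRange 5 (pairsFrom 0 (adjRows.take 321)) 29 1 = true := by
  decide +kernel

theorem cf_38 : freeRange 5 (pairsFrom 0 (adjRows.take 321)) 38 1 = true := by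
  decide +kernel

theorem cf_44 : freeRange 5 (pairsFrom 0 (adjRows.take 321)) 44 1 = true := by
  decide +kernel

theorem cf_45 : freeRange 5 (pairsFrom 0 (adjRows.take 321)) 45 2 = true := by
  decide +kernel

theorem cf_61 : freeRange 5 (pairsFrom 0 (adjRows.take 321)) 61 1 = true := by
  decide +kernel

theorem cf_79 : freeRange 5 (pairsFrom 0 (adjRows.take 321)) 79 2 = true := by
  decide +kernel

theorem cf_83 : freeRange 5 (pairsFrom 0 (adjRows.take 321)) 83 2 = true := by
  decide +kernel

theorem cf_87 : freeRange 5 (pairsFrom 0 (adjRows.take 321)) 87 2 = true := by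
  decide +kernel

theorem cf_97 : freeRange 5 (pairsFrom 0 (adjRows.take 321)) 97 3 = true := by
  decide +kernel

theorem cf_120 : freeRange 5 (pairsFrom 0 (adjRows.take 321)) 120 4 = true := by
  decide +kernel

theorem cf_124 : freeRange 5 (pairsFrom 0 (adjRows.take 321)) 124 4 = true := by
  decide +kernel

theorem cf_212 : freeRange 5 (pairsFrom 0 (adjRows.take 321)) 212 32 = true := by
  decide +kernel

end Vale.Agent.Lib.P052.Fine
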