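import Vale.Agent.Lib.P052.lead.CliqueFineA
import Vale.Agent.Lib.P052.lead.CliqueFineB
import Vale.Agent.Lib.P052.lead.CliqueFineC
import Vale.Agent.Lib.P052.lead.CliqueFineD
import Vale.Agent.Lib.P052.lead.CliqueFineE
import Vale.Agent.Lib.P052.lead.CliqueFineF
import Vale.Agent.Lib.P052.lead.CliqueFineG
import Vale.Agent.Lib.P052.lead.CliqueFineH

/-!
# The clique bound for the 321-point configuration

Every set of pairwise adjacent vertices among the first 321 vertices of the graph given by
`adjRows` has at most five elements; in matrix form: a subset of `T` on which all off-diagonal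
entries of `Nmat` equal `3` has at most five elements.  (Checker and soundness lemmas: helper29;
the kernel computation is cut into short blocks.)
-/

namespace Vale.Agent.Lib.P052.Fine

open Vale.Agent.Lib.P052 Vale.Agent.Lib.P052.H29

theorem length_take : (adjRows.take 321).length = 321 := by decide +kernel

theorem all_freeAt : ∀ i < (adjRows.take 321).length,
    freeAt 5 (pairsFrom 0 (adjRows.take 321)) i = true := by
  intro i hi
  rw [length_take] at hi
  by_cases h0 : i < 1
  · exact freeAt_of_freeRange cf_0 (by omega) (by omega)
  by_cases h1 : i < 2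
  · exact freeAt_of_freeRange cf_1 (by omega) (by omega)
  by_cases h2 : i < 3
  · exact freeAt_of_freeRange cf_2 (by omega) (by omega)
  by_cases h3 : i < 4
  · exact freeAt_of_freeRange cf_3 (by omega) (by omega)
  by_cases h4 : i < 5
  · exact freeAt_of_freeRange cf_4 (by omega) (by omega)
  by_cases h5 : i < 6
  · exact freeAt_of_freeRange cf_5 (by omega) (by omega)
  by_cases h6 : i < 7
  · exact freeAt_of_freeRange cf_6 (by omega) (by omega)
  by_cases h7 : i < 8
  · exact freeAt_of_freeRange cf_7 (by omega) (by omega)
  by_cases h8 : i < 9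
  · exact freeAt_of_freeRange cf_8 (by omega) (by omega)
  by_cases h9 : i < 10
  · exact freeAt_of_freeRange cf_9 (by omega) (by omega)
  by_cases h10 : i < 11
  · exact freeAt_of_freeRange cf_10 (by omega) (by omega)
  by_cases h11 : i < 12
  · exact freeAt_of_freeRange cf_11 (by omega) (by omega)
  by_cases h12 : i < 13
  · exact freeAt_of_freeRange cf_12 (by omega) (by omega)
  by_cases h13 : i < 14
  · exact freeAt_of_freeRange cf_13 (by omega) (by omega)
  by_cases h14 : i < 15
  · exact freeAt_of_freeRange cf_14 (by omega) (by omega)
  by_cases h15 : i < 16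
  · exact freeAt_of_freeRange cf_15 (by omega) (by omega)
  by_cases h16 : i < 17
  · exact freeAt_of_freeRange cf_16 (by omega) (by omega)
  by_cases h17 : i < 18
  · exact freeAt_of_freeRange cf_17 (by omega) (by omega)
  by_cases h18 : i < 19
  · exact freeAt_of_freeRange cf_18 (by omega) (by omega)
  by_cases h19 : i < 20
  · exact freeAt_of_freeRange cf_19 (by omega) (by omega)
  by_cases h20 : i < 21
  · exact freeAt_of_freeRange cf_20 (by omega) (by omega)
  by_cases h21 : i < 22
  · exact freeAt_of_freeRange cf_21 (by omega) (by omega)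
  by_cases h22 : i < 23
  · exact freeAt_of_freeRange cf_22 (by omega) (by omega)
  by_cases h23 : i < 24
  · exact freeAt_of_freeRange cf_23 (by omega) (by omega)
  by_cases h24 : i < 25
  · exact freeAt_of_freeRange cf_24 (by omega) (by omega)
  by_cases h25 : i < 26
  · exact freeAt_of_freeRange cf_25 (by omega) (by omega)
  by_cases h26 : i < 27
  · exact freeAt_of_freeRange cf_26 (by omega) (by omega)
  by_cases h27 : i < 28
  · exact freeAt_of_freeRange cf_27 (by omega) (by omega)
  by_cases h28 : i < 29
  · exact freeAt_of_freeRange cf_28 (by omega) (by omega)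
  by_cases h29 : i < 30
  · exact freeAt_of_freeRange cf_29 (by omega) (by omega)
  by_cases h30 : i < 31
  · exact freeAt_of_freeRange cf_30 (by omega) (by omega)
  by_cases h31 : i < 32
  · exact freeAt_of_freeRange cf_31 (by omega) (by omega)
  by_cases h32 : i < 33
  · exact freeAt_of_freeRange cf_32 (by omega) (by omega)
  by_cases h33 : i < 34
  · exact freeAt_of_freeRange cf_33 (by omega) (by omega)
  by_cases h34 : i < 35
  · exact freeAt_of_freeRange cf_34 (by omega) (by omega)
  by_cases h35 : i < 36
  · exact freeAt_of_freeRange cf_35 (by omega) (by omega)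
  by_cases h36 : i < 37
  · exact freeAt_of_freeRange cf_36 (by omega) (by omega)
  by_cases h37 : i < 38
  · exact freeAt_of_freeRange cf_37 (by omega) (by omega)
  by_cases h38 : i < 39
  · exact freeAt_of_freeRange cf_38 (by omega) (by omega)
  by_cases h39 : i < 40
  · exact freeAt_of_freeRange cf_39 (by omega) (by omega)
  by_cases h40 : i < 41
  · exact freeAt_of_freeRange cf_40 (by omega) (by omega)
  by_cases h41 : i < 42
  · exact freeAt_of_freeRange cf_41 (by omega) (by omega)
  by_cases h42 : i < 43
  · exact freeAt_of_freeRange cf_42 (by omega) (by omega)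
  by_cases h43 : i < 44
  · exact freeAt_of_freeRange cf_43 (by omega) (by omega)
  by_cases h44 : i < 45
  · exact freeAt_of_freeRange cf_44 (by omega) (by omega)
  by_cases h45 : i < 47
  · exact freeAt_of_freeRange cf_45 (by omega) (by omega)
  by_cases h47 : i < 48
  · exact freeAt_of_freeRange cf_47 (by omega) (by omega)
  by_cases h48 : i < 50
  · exact freeAt_of_freeRange cf_48 (by omega) (by omega)
  by_cases h50 : i < 52
  · exact freeAt_of_freeRange cf_50 (by omega) (by omega)
  by_cases h52 : i < 54
  · exact freeAt_of_freeRange cf_52 (by omega) (by omega)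
  by_cases h54 : i < 56
  · exact freeAt_of_freeRange cf_54 (by omega) (by omega)
  by_cases h56 : i < 58
  · exact freeAt_of_freeRange cf_56 (by omega) (by omega)
  by_cases h58 : i < 60
  · exact freeAt_of_freeRange cf_58 (by omega) (by omega)
  by_cases h60 : i < 61
  · exact freeAt_of_freeRange cf_60 (by omega) (by omega)
  by_cases h61 : i < 62
  · exact freeAt_of_freeRange cf_61 (by omega) (by omega)
  by_cases h62 : i < 63
  · exact freeAt_of_freeRange cf_62 (by omega) (by omega)
  by_cases h63 : i < 64
  · exact freeAt_of_freeRange cf_63 (by omega) (by omega)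
  by_cases h64 : i < 65
  · exact freeAt_of_freeRange cf_64 (by omega) (by omega)
  by_cases h65 : i < 66
  · exact freeAt_of_freeRange cf_65 (by omega) (by omega)
  by_cases h66 : i < 67
  · exact freeAt_of_freeRange cf_66 (by omega) (by omega)
  by_cases h67 : i < 68
  · exact freeAt_of_freeRange cf_67 (by omega) (by omega)
  by_cases h68 : i < 69
  · exact freeAt_of_freeRange cf_68 (by omega) (by omega)
  by_cases h69 : i < 71
  · exact freeAt_of_freeRange cf_69 (by omega) (by omega)
  by_cases h71 : i < 73
  · exact freeAt_of_freeRange cf_71 (by omega) (by omega)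
  by_cases h73 : i < 75
  · exact freeAt_of_freeRange cf_73 (by omega) (by omega)
  by_cases h75 : i < 77
  · exact freeAt_of_freeRange cf_75 (by omega) (by omega)
  by_cases h77 : i < 79
  · exact freeAt_of_freeRange cf_77 (by omega) (by omega)
  by_cases h79 : i < 81
  · exact freeAt_of_freeRange cf_79 (by omega) (by omega)
  by_cases h81 : i < 83
  · exact freeAt_of_freeRange cf_81 (by omega) (by omega)
  by_cases h83 : i < 85
  · exact freeAt_of_freeRange cf_83 (by omega) (by omega)
  by_cases h85 : i < 87
  · exact freeAt_of_freeRange cf_85 (by omega) (by omega)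
  by_cases h87 : i < 89
  · exact freeAt_of_freeRange cf_87 (by omega) (by omega)
  by_cases h89 : i < 91
  · exact freeAt_of_freeRange cf_89 (by omega) (by omega)
  by_cases h91 : i < 94
  · exact freeAt_of_freeRange cf_91 (by omega) (by omega)
  by_cases h94 : i < 97
  · exact freeAt_of_freeRange cf_94 (by omega) (by omega)
  by_cases h97 : i < 100
  · exact freeAt_of_freeRange cf_97 (by omega) (by omega)
  by_cases h100 : i < 102
  · exact freeAt_of_freeRange cf_100 (by omega) (by omega)
  by_cases h102 : i < 104
  · exact freeAt_of_freeRange cf_102 (by omega) (by omega)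
  by_cases h104 : i < 107
  · exact freeAt_of_freeRange cf_104 (by omega) (by omega)
  by_cases h107 : i < 109
  · exact freeAt_of_freeRange cf_107 (by omega) (by omega)
  by_cases h109 : i < 112
  · exact freeAt_of_freeRange cf_109 (by omega) (by omega)
  by_cases h112 : i < 114
  · exact freeAt_of_freeRange cf_112 (by omega) (by omega)
  by_cases h114 : i < 117
  · exact freeAt_of_freeRange cf_114 (by omega) (by omega)
  by_cases h117 : i < 120
  · exact freeAt_of_freeRange cf_117 (by omega) (by omega)
  by_cases h120 : i < 124
  · exact freeAt_of_freeRange cf_120 (by omega) (by omega)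
  by_cases h124 : i < 128
  · exact freeAt_of_freeRange cf_124 (by omega) (by omega)
  by_cases h128 : i < 133
  · exact freeAt_of_freeRange cf_128 (by omega) (by omega)
  by_cases h133 : i < 137
  · exact freeAt_of_freeRange cf_133 (by omega) (by omega)
  by_cases h137 : i < 141
  · exact freeAt_of_freeRange cf_137 (by omega) (by omega)
  by_cases h141 : i < 145
  · exact freeAt_of_freeRange cf_141 (by omega) (by omega)
  by_cases h145 : i < 150
  · exact freeAt_of_freeRange cf_145 (by omega) (by omega)
  by_cases h150 : i < 156
  · exact freeAt_of_freeRange cf_150 (by omega) (by omega)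
  by_cases h156 : i < 163
  · exact freeAt_of_freeRange cf_156 (by omega) (by omega)
  by_cases h163 : i < 171
  · exact freeAt_of_freeRange cf_163 (by omega) (by omega)
  by_cases h171 : i < 181
  · exact freeAt_of_freeRange cf_171 (by omega) (by omega)
  by_cases h181 : i < 194
  · exact freeAt_of_freeRange cf_181 (by omega) (by omega)
  by_cases h194 : i < 212
  · exact freeAt_of_freeRange cf_194 (by omega) (by omega)
  by_cases h212 : i < 244
  · exact freeAt_of_freeRange cf_212 (by omega) (by omega)
  by_cases h244 : i < 321
  · exact freeAt_of_freeRange cf_244 (by omega) (by omega)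
  omega

/-- Every set of indices below 321 that are pairwise adjacent in the graph of `adjRows` has at
most five elements. -/
theorem card_le_five (s : Finset ℕ) (hs : ∀ i ∈ s, i < 321)
    (hadj : ∀ i ∈ s, ∀ j ∈ s, i < j → adjBit i j = true) : s.card ≤ 5 := by
  apply card_le_of_freeAt (adjRows.take 321) 5 all_freeAt s
  · intro i hi
    rw [length_take]
    exact hs i hi
  · intro i hi j hj hij
    have h := hadj i hi j hj hij
    have hi' : i < 321 := hs i hi
    have : (adjRows.take 321).getD i 0 = adjRows.getD i 0 := by
      simp only [List.getD_eq_getElem?_getD, List.getElem?_take, if_pos hi']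
    rw [this]
    exact h

/-- For two distinct indices below 321 the entry of `Nmat` is `3` exactly when they are adjacent,
and `-1` otherwise. -/
theorem Nmat_offdiag (u v : Fin 416) (hu : (u : ℕ) < 321) (hv : (v : ℕ) < 321) (hne : u ≠ v) :
    Nmat u v = if adjBit u v = true then 3 else -1 := by
  have hne' : (u : ℕ) ≠ (v : ℕ) := fun h => hne (Fin.ext h)
  have hw2u : w2 (u : ℕ) = 0 := by
    unfold w2
    rw [if_pos (by omega)]
  have hw2v : w2 (v : ℕ) = 0 := by
    unfold w2
    rw [if_pos (by omega)]
  have hw1 : w1 (u : ℕ) * w1 (v : ℕ) = 0 := by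
    rcases lt_or_ge (u : ℕ) 320 with h | h
    · have : w1 (u : ℕ) = 0 := by
        unfold w1
        rw [if_pos h]
      rw [this, zero_mul]
    · have hv' : (v : ℕ) < 320 := by omega
      have : w1 (v : ℕ) = 0 := by
        unfold w1
        rw [if_pos hv']
      rw [this, mul_zero]
  have hN : Nmat u v = gram (u : ℕ) (v : ℕ) := by
    simp only [Nmat, Matrix.of_apply]
    rw [hw2u, hw2v, mul_assoc, hw1]
    ring
  rw [hN]
  unfold gram
  rw [if_neg hne']

/-- The clique bound in matrix form: a subset of `T` on which all off-diagonal entries of `Nmat`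
equal `3` has at most five elements. -/
theorem clique_bound : ∀ P : Finset (Fin 416), P ⊆ T →
    (∀ u ∈ P, ∀ v ∈ P, u ≠ v → Nmat u v = 3) → P.card ≤ 5 := by
  classical
  intro P hPT hP
  have hT : ∀ u ∈ P, (u : ℕ) < 321 := by
    intro u hu
    have := hPT hu
    simpa [T] using this
  have hinj : Function.Injective (fun u : Fin 416 => (u : ℕ)) := Fin.val_injective
  have key := card_le_five (P.image fun u : Fin 416 => (u : ℕ))
    (by
      intro i hi
      obtain ⟨u, hu, rfl⟩ := Finset.mem_image.1 hi
      exact hT u hu)
    (by
      intro i hi j hj hij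
      obtain ⟨u, hu, rfl⟩ := Finset.mem_image.1 hi
      obtain ⟨v, hv, rfl⟩ := Finset.mem_image.1 hj
      have hne : u ≠ v := fun e => by rw [e] at hij; exact lt_irrefl _ hij
      have h3 := hP u hu v hv hne
      rw [Nmat_offdiag u v (hT u hu) (hT v hv) hne] at h3
      by_contra hb
      rw [if_neg hb] at h3
      norm_num at h3)
  rwa [Finset.card_image_of_injective _ hinj] at key

end Vale.Agent.Lib.P052.Fine
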