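import Mathlib
import Vale.Agent.Lib.P052.lead.Data
import Vale.Agent.Lib.P052.lead.Abstract
import Vale.Agent.Lib.P052.lead.CliqueFine

/-!
# P052: assembly of the 63-dimensional counterexample, given the matrix identity
-/

namespace Vale.Agent.Lib.P052

theorem T_card : T.card = 321 := by
  have h : T = (Finset.Iio (⟨321, by norm_num⟩ : Fin 416)) := by
    ext u
    simp [T, Fin.lt_def]
  rw [h, Fin.card_Iio]

theorem mem_T {u : Fin 416} : u ∈ T ↔ u.val < 321 := by simp [T]

theorem w1_zero {u : ℕ} (h : u < 320) : w1 u = 0 := by simp [w1, h]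

theorem w2_zero {u : ℕ} (h : u < 320) : w2 u = 0 := by
  have : u < 352 := by omega
  simp [w2, this]

theorem Nmat_eq_gram_left {u v : Fin 416} (h : u.val < 320) : Nmat u v = gram u.val v.val := by
  simp [Nmat, w1_zero h, w2_zero h]

theorem Nmat_eq_gram_right {u v : Fin 416} (h : v.val < 320) : Nmat u v = gram u.val v.val := by
  simp [Nmat, w1_zero h, w2_zero h]

theorem Nmat_eq_gram {u v : Fin 416} (hu : u ∈ T) (hv : v ∈ T) (huv : u ≠ v) :
    Nmat u v = gram u.val v.val := by
  rw [mem_T] at hu hv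
  by_cases h : u.val < 320
  · exact Nmat_eq_gram_left h
  · have : v.val < 320 := by
      have : u.val ≠ v.val := fun e => huv (Fin.ext e)
      omega
    exact Nmat_eq_gram_right this

theorem gram_off {u v : ℕ} (huv : u ≠ v) : gram u v = if adjBit u v then 3 else -1 := by
  simp [gram, huv]

theorem adjBit_zero_one : adjBit 0 1 = false := by decide

theorem Nmat_diag (u : Fin 416) : Nmat u u =
    15 - 2 * w1 u.val * w1 u.val - w1 u.val * w2 u.val - w2 u.val * w1 u.val
      - 2 * w2 u.val * w2 u.val := by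
  simp [Nmat, gram]

theorem Nmat_trace : Nmat.trace = 96 * 63 := by
  unfold Matrix.trace
  simp only [Matrix.diag_apply, Nmat_diag]
  rw [Fin.sum_univ_eq_sum_range (fun u : ℕ => (15 : ℤ) - 2 * w1 u * w1 u - w1 u * w2 u
      - w2 u * w1 u - 2 * w2 u * w2 u) 416]
  decide +kernel

/-- Given the matrix identity `Nmatᵀ * Nmat = 96 • Nmat`, Borsuk's conjecture fails in
dimension 63. -/
theorem borsuk63_of_sq (hsq : Nmat.transpose * Nmat = (96 : ℤ) • Nmat) :
    ∃ Z : Set (EuclideanSpace ℝ (Fin 63)), Z.Finite ∧ 0 < Metric.diam Z ∧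
      ¬ ∃ P : Fin 64 → Set (EuclideanSpace ℝ (Fin 63)),
          (⋃ i, P i) = Z ∧ ∀ i, Metric.diam (P i) < Metric.diam Z := by
  refine borsuk_of_matrix Nmat 96 63 5 (by norm_num) ?_ ?_ T v0 ?_ ?_ ?_ ?_ ?_ ?_ ?_
  · simpa using hsq
  · simpa using Nmat_trace
  · simp [mem_T, v0]
  · intro u hu hne
    have hlt : u.val < 320 := by
      rw [mem_T] at hu
      have : u.val ≠ 320 := fun e => hne (Fin.ext (by simpa [v0] using e))
      omega
    rw [Nmat_eq_gram_left hlt]
    simp [gram]
  · simp [Nmat, gram, w1, w2, v0]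
  · intro u hu v hv huv
    rw [Nmat_eq_gram hu hv huv, gram_off (fun e => huv (Fin.ext e))]
    by_cases h : adjBit u.val v.val <;> simp [h]
  · refine ⟨⟨0, by norm_num⟩, by simp [mem_T], ⟨1, by norm_num⟩, by simp [mem_T], by decide, ?_⟩
    rw [Nmat_eq_gram_left (by norm_num), gram_off (by norm_num)]
    simp [adjBit_zero_one]
  · exact Fine.clique_bound
  · rw [T_card]; norm_num

end Vale.Agent.Lib.P052
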