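import Vale.Agent.Lib.P052.helper29.FastCheck

/-! Kernel-checked short blocks of the Boolean tests `check1F` and `check2F` of `FastCheck`. -/

namespace Vale.Agent.Lib.P052.Fine

open Vale.Agent.Lib.P052 Vale.Agent.Lib.P052.H29

theorem sq1_0 : check1F (List.range' 0 26) (adjRows.drop 0) (spreadRows.drop 0)
    (encRows.drop 0) = true := by
  decide +kernel

theorem sq1_156 : check1F (List.range' 156 26) (adjRows.drop 156) (spreadRows.drop 156)
    (encRows.drop 156) = true := by
  decide +kernel

theorem sq1_312 : check1F (List.range' 312 26) (adjRows.drop 312) (spreadRows.drop 312)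
    (encRows.drop 312) = true := by
  decide +kernel

theorem sq2_26 : check2F (List.range' 26 13) (adjRows.drop 26) (encRows.drop 26) = true := by
  decide +kernel

theorem sq2_104 : check2F (List.range' 104 13) (adjRows.drop 104) (encRows.drop 104) = true := by
  decide +kernel

theorem sq2_182 : check2F (List.range' 182 13) (adjRows.drop 182) (encRows.drop 182) = true := by
  decide +kernel

theorem sq2_260 : check2F (List.range' 260 13) (adjRows.drop 260) (encRows.drop 260) = true := by
  decide +kernel

theorem sq2_338 : check2F (List.range' 338 13) (adjRows.drop 338) (encRows.drop 338) = true := by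
  decide +kernel

end Vale.Agent.Lib.P052.Fine
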