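import Vale.Agent.Lib.P052.helper29.FastCheck
import Vale.Agent.Lib.P052.lead.SqFineA

/-! Kernel-checked short blocks of the Boolean tests `check1F` and `check2F` of `FastCheck`. -/

namespace Vale.Agent.Lib.P052.Fine

open Vale.Agent.Lib.P052 Vale.Agent.Lib.P052.H29

theorem sq1_26 : check1F (List.range' 26 26) (adjRows.drop 26) (spreadRows.drop 26)
    (encRows.drop 26) = true := by
  decide +kernel

theorem sq1_182 : check1F (List.range' 182 26) (adjRows.drop 182) (spreadRows.drop 182)
    (encRows.drop 182) = true := by
  decide +kernel

theorem sq1_338 : check1F (List.range' 338 26) (adjRows.drop 338) (spreadRows.drop 338)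
    (encRows.drop 338) = true := by
  decide +kernel

theorem sq2_39 : check2F (List.range' 39 13) (adjRows.drop 39) (encRows.drop 39) = true := by
  decide +kernel

theorem sq2_117 : check2F (List.range' 117 13) (adjRows.drop 117) (encRows.drop 117) = true := by
  decide +kernel

theorem sq2_195 : check2F (List.range' 195 13) (adjRows.drop 195) (encRows.drop 195) = true := by
  decide +kernel

theorem sq2_273 : check2F (List.range' 273 13) (adjRows.drop 273) (encRows.drop 273) = true := by
  decide +kernel

theorem sq2_351 : check2F (List.range' 351 13) (adjRows.drop 351) (encRows.drop 351) = true := by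
  decide +kernel

end Vale.Agent.Lib.P052.Fine
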