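import Vale.Agent.Lib.P052.helper29.FastCheck
import Vale.Agent.Lib.P052.lead.SqFineB

/-! Kernel-checked short blocks of the Boolean tests `check1F` and `check2F` of `FastCheck`. -/

namespace Vale.Agent.Lib.P052.Fine

open Vale.Agent.Lib.P052 Vale.Agent.Lib.P052.H29

theorem sq1_52 : check1F (List.range' 52 26) (adjRows.drop 52) (spreadRows.drop 52)
    (encRows.drop 52) = true := by
  decide +kernel

theorem sq1_208 : check1F (List.range' 208 26) (adjRows.drop 208) (spreadRows.drop 208)
    (encRows.drop 208) = true := by
  decide +kernel

theorem sq1_364 : check1F (List.range' 364 26) (adjRows.drop 364) (spreadRows.drop 364)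
    (encRows.drop 364) = true := by
  decide +kernel

theorem sq2_52 : check2F (List.range' 52 13) (adjRows.drop 52) (encRows.drop 52) = true := by
  decide +kernel

theorem sq2_130 : check2F (List.range' 130 13) (adjRows.drop 130) (encRows.drop 130) = true := by
  decide +kernel

theorem sq2_208 : check2F (List.range' 208 13) (adjRows.drop 208) (encRows.drop 208) = true := by
  decide +kernel

theorem sq2_286 : check2F (List.range' 286 13) (adjRows.drop 286) (encRows.drop 286) = true := by
  decide +kernel

theorem sq2_364 : check2F (List.range' 364 13) (adjRows.drop 364) (encRows.drop 364) = true := by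
  decide +kernel

end Vale.Agent.Lib.P052.Fine
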