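import Vale.Agent.Lib.P052.helper29.FastCheck
import Vale.Agent.Lib.P052.lead.SqFineC

/-! Kernel-checked short blocks of the Boolean tests `check1F` and `check2F` of `FastCheck`. -/

namespace Vale.Agent.Lib.P052.Fine

open Vale.Agent.Lib.P052 Vale.Agent.Lib.P052.H29

theorem sq1_78 : check1F (List.range' 78 26) (adjRows.drop 78) (spreadRows.drop 78)
    (encRows.drop 78) = true := by
  decide +kernel

theorem sq1_234 : check1F (List.range' 234 26) (adjRows.drop 234) (spreadRows.drop 234)
    (encRows.drop 234) = true := by
  decide +kernel

theorem sq1_390 : check1F (List.range' 390 26) (adjRows.drop 390) (spreadRows.drop 390)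
    (encRows.drop 390) = true := by
  decide +kernel

theorem sq2_65 : check2F (List.range' 65 13) (adjRows.drop 65) (encRows.drop 65) = true := by
  decide +kernel

theorem sq2_143 : check2F (List.range' 143 13) (adjRows.drop 143) (encRows.drop 143) = true := by
  decide +kernel

theorem sq2_221 : check2F (List.range' 221 13) (adjRows.drop 221) (encRows.drop 221) = true := by
  decide +kernel

theorem sq2_299 : check2F (List.range' 299 13) (adjRows.drop 299) (encRows.drop 299) = true := by
  decide +kernel

theorem sq2_377 : check2F (List.range' 377 13) (adjRows.drop 377) (encRows.drop 377) = true := by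
  decide +kernel

end Vale.Agent.Lib.P052.Fine
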