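import Vale.Agent.Lib.P052.helper29.FastCheck
import Vale.Agent.Lib.P052.lead.SqFineD

/-! Kernel-checked short blocks of the Boolean tests `check1F` and `check2F` of `FastCheck`. -/

namespace Vale.Agent.Lib.P052.Fine

open Vale.Agent.Lib.P052 Vale.Agent.Lib.P052.H29

theorem sq1_104 : check1F (List.range' 104 26) (adjRows.drop 104) (spreadRows.drop 104)
    (encRows.drop 104) = true := by
  decide +kernel

theorem sq1_260 : check1F (List.range' 260 26) (adjRows.drop 260) (spreadRows.drop 260)
    (encRows.drop 260) = true := by
  decide +kernel

theorem sq2_0 : check2F (List.range' 0 13) (adjRows.drop 0) (encRows.drop 0) = true := by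
  decide +kernel

theorem sq2_78 : check2F (List.range' 78 13) (adjRows.drop 78) (encRows.drop 78) = true := by
  decide +kernel

theorem sq2_156 : check2F (List.range' 156 13) (adjRows.drop 156) (encRows.drop 156) = true := by
  decide +kernel

theorem sq2_234 : check2F (List.range' 234 13) (adjRows.drop 234) (encRows.drop 234) = true := by
  decide +kernel

theorem sq2_312 : check2F (List.range' 312 13) (adjRows.drop 312) (encRows.drop 312) = true := by
  decide +kernel

theorem sq2_390 : check2F (List.range' 390 13) (adjRows.drop 390) (encRows.drop 390) = true := by
  decide +kernel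

end Vale.Agent.Lib.P052.Fine
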