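import Vale.Agent.Lib.P052.helper29.FastCheck
import Vale.Agent.Lib.P052.lead.SqFineE

/-! Kernel-checked short blocks of the Boolean tests `check1F` and `check2F` of `FastCheck`. -/

namespace Vale.Agent.Lib.P052.Fine

open Vale.Agent.Lib.P052 Vale.Agent.Lib.P052.H29

theorem sq1_130 : check1F (List.range' 130 26) (adjRows.drop 130) (spreadRows.drop 130)
    (encRows.drop 130) = true := by
  decide +kernel

theorem sq1_286 : check1F (List.range' 286 26) (adjRows.drop 286) (spreadRows.drop 286)
    (encRows.drop 286) = true := by
  decide +kernel

theorem sq2_13 : check2F (List.range' 13 13) (adjRows.drop 13) (encRows.drop 13) = true := by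
  decide +kernel

theorem sq2_91 : check2F (List.range' 91 13) (adjRows.drop 91) (encRows.drop 91) = true := by
  decide +kernel

theorem sq2_169 : check2F (List.range' 169 13) (adjRows.drop 169) (encRows.drop 169) = true := by
  decide +kernel

theorem sq2_247 : check2F (List.range' 247 13) (adjRows.drop 247) (encRows.drop 247) = true := by
  decide +kernel

theorem sq2_325 : check2F (List.range' 325 13) (adjRows.drop 325) (encRows.drop 325) = true := by
  decide +kernel

theorem sq2_403 : check2F (List.range' 403 13) (adjRows.drop 403) (encRows.drop 403) = true := by
  decide +kernel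

end Vale.Agent.Lib.P052.Fine
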