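import Vale.Agent.Lib.P052.helper29.FastSound
import Vale.Agent.Lib.P052.lead.SqFineA
import Vale.Agent.Lib.P052.lead.SqFineB
import Vale.Agent.Lib.P052.lead.SqFineC
import Vale.Agent.Lib.P052.lead.SqFineD
import Vale.Agent.Lib.P052.lead.SqFineE
import Vale.Agent.Lib.P052.lead.SqFineF

/-!
# P052: the matrix identity `Nmatᵀ * Nmat = 96 • Nmat`

Assembly of short kernel-checked blocks with `hsq_of_checks` (checker and soundness: helper29).
-/

namespace Vale.Agent.Lib.P052.Fine

open Vale.Agent.Lib.P052 Vale.Agent.Lib.P052.H29

theorem all_check1 : ∀ k < 416, encRow (adjRows.getD k 0) k = encRows.getD k 0 := by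
  intro k hk
  by_cases h0 : k < 26
  · exact encRow_of_check1F sq1_0 (by omega) (by omega) hk
  by_cases h26 : k < 52
  · exact encRow_of_check1F sq1_26 (by omega) (by omega) hk
  by_cases h52 : k < 78
  · exact encRow_of_check1F sq1_52 (by omega) (by omega) hk
  by_cases h78 : k < 104
  · exact encRow_of_check1F sq1_78 (by omega) (by omega) hk
  by_cases h104 : k < 130
  · exact encRow_of_check1F sq1_104 (by omega) (by omega) hk
  by_cases h130 : k < 156
  · exact encRow_of_check1F sq1_130 (by omega) (by omega) hk
  by_cases h156 : k < 182
  · exact encRow_of_check1F sq1_156 (by omega) (by omega) hk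
  by_cases h182 : k < 208
  · exact encRow_of_check1F sq1_182 (by omega) (by omega) hk
  by_cases h208 : k < 234
  · exact encRow_of_check1F sq1_208 (by omega) (by omega) hk
  by_cases h234 : k < 260
  · exact encRow_of_check1F sq1_234 (by omega) (by omega) hk
  by_cases h260 : k < 286
  · exact encRow_of_check1F sq1_260 (by omega) (by omega) hk
  by_cases h286 : k < 312
  · exact encRow_of_check1F sq1_286 (by omega) (by omega) hk
  by_cases h312 : k < 338
  · exact encRow_of_check1F sq1_312 (by omega) (by omega) hk
  by_cases h338 : k < 364
  · exact encRow_of_check1F sq1_338 (by omega) (by omega) hk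
  by_cases h364 : k < 390
  · exact encRow_of_check1F sq1_364 (by omega) (by omega) hk
  by_cases h390 : k < 416
  · exact encRow_of_check1F sq1_390 (by omega) (by omega) hk
  omega

theorem all_check2 : ∀ u < 416,
    colSumAux u (List.range 416) adjRows encRows = 96 * encRows.getD u 0 := by
  intro u hu
  by_cases h0 : u < 13
  · exact colSum_of_check2F sq2_0 (by omega) (by omega) hu
  by_cases h13 : u < 26
  · exact colSum_of_check2F sq2_13 (by omega) (by omega) hu
  by_cases h26 : u < 39
  · exact colSum_of_check2F sq2_26 (by omega) (by omega) hu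
  by_cases h39 : u < 52
  · exact colSum_of_check2F sq2_39 (by omega) (by omega) hu
  by_cases h52 : u < 65
  · exact colSum_of_check2F sq2_52 (by omega) (by omega) hu
  by_cases h65 : u < 78
  · exact colSum_of_check2F sq2_65 (by omega) (by omega) hu
  by_cases h78 : u < 91
  · exact colSum_of_check2F sq2_78 (by omega) (by omega) hu
  by_cases h91 : u < 104
  · exact colSum_of_check2F sq2_91 (by omega) (by omega) hu
  by_cases h104 : u < 117
  · exact colSum_of_check2F sq2_104 (by omega) (by omega) hu
  by_cases h117 : u < 130
  · exact colSum_of_check2F sq2_117 (by omega) (by omega) hu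
  by_cases h130 : u < 143
  · exact colSum_of_check2F sq2_130 (by omega) (by omega) hu
  by_cases h143 : u < 156
  · exact colSum_of_check2F sq2_143 (by omega) (by omega) hu
  by_cases h156 : u < 169
  · exact colSum_of_check2F sq2_156 (by omega) (by omega) hu
  by_cases h169 : u < 182
  · exact colSum_of_check2F sq2_169 (by omega) (by omega) hu
  by_cases h182 : u < 195
  · exact colSum_of_check2F sq2_182 (by omega) (by omega) hu
  by_cases h195 : u < 208
  · exact colSum_of_check2F sq2_195 (by omega) (by omega) hu
  by_cases h208 : u < 221
  · exact colSum_of_check2F sq2_208 (by omega) (by omega) hu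
  by_cases h221 : u < 234
  · exact colSum_of_check2F sq2_221 (by omega) (by omega) hu
  by_cases h234 : u < 247
  · exact colSum_of_check2F sq2_234 (by omega) (by omega) hu
  by_cases h247 : u < 260
  · exact colSum_of_check2F sq2_247 (by omega) (by omega) hu
  by_cases h260 : u < 273
  · exact colSum_of_check2F sq2_260 (by omega) (by omega) hu
  by_cases h273 : u < 286
  · exact colSum_of_check2F sq2_273 (by omega) (by omega) hu
  by_cases h286 : u < 299
  · exact colSum_of_check2F sq2_286 (by omega) (by omega) hu
  by_cases h299 : u < 312
  · exact colSum_of_check2F sq2_299 (by omega) (by omega) hu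
  by_cases h312 : u < 325
  · exact colSum_of_check2F sq2_312 (by omega) (by omega) hu
  by_cases h325 : u < 338
  · exact colSum_of_check2F sq2_325 (by omega) (by omega) hu
  by_cases h338 : u < 351
  · exact colSum_of_check2F sq2_338 (by omega) (by omega) hu
  by_cases h351 : u < 364
  · exact colSum_of_check2F sq2_351 (by omega) (by omega) hu
  by_cases h364 : u < 377
  · exact colSum_of_check2F sq2_364 (by omega) (by omega) hu
  by_cases h377 : u < 390
  · exact colSum_of_check2F sq2_377 (by omega) (by omega) hu
  by_cases h390 : u < 403
  · exact colSum_of_check2F sq2_390 (by omega) (by omega) hu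
  by_cases h403 : u < 416
  · exact colSum_of_check2F sq2_403 (by omega) (by omega) hu
  omega

/-- The matrix identity: `Nmat / 96` is an orthogonal projection. -/
theorem Nmat_sq : Nmat.transpose * Nmat = (96 : ℤ) • Nmat :=
  hsq_of_checks length_adjRows length_encRows all_check1 all_check2

end Vale.Agent.Lib.P052.Fine
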